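import Vale.Agent.P202.Mixed2.LechAll

/-!
Lech's conjecture: the multiplicity does not decrease along flat local maps.
-/

namespace Vale.Agent.Results.P202.LechConjecture

open Vale.Agent.P202 IsLocalRing

universe u

theorem result :
    ∀ (R S : Type u) [CommRing R] [CommRing S] [IsLocalRing R] [IsLocalRing S]
      [IsNoetherianRing R] [IsNoetherianRing S] [Algebra R S] [IsLocalHom (algebraMap R S)]
      [Module.Flat R S],
      ∃ (d D : ℕ) (e e' : ℝ), ringKrullDim R = d ∧ ringKrullDim S = D ∧ 0 < e ∧
        IsMultiplicity R d e ∧ IsMultiplicity S D e' ∧ e ≤ e' := by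
  intro R S _ _ _ _ _ _ _ _ _
  obtain ⟨d, e, hd, hpos, he⟩ := Char.exists_multiplicity R
  obtain ⟨D, e', hD, -, he'⟩ := Char.exists_multiplicity S
  exact ⟨d, D, e, e', hd, hD, hpos, he, he', Mixed2.lech_all R S hd hD he he'⟩

end Vale.Agent.Results.P202.LechConjecture
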